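import Vale.Agent.P352R.L22.Net

/-!
# P352R, block En: form bounds give operator bounds (helper80)
-/

set_option autoImplicit false
set_option linter.all false

noncomputable section

namespace Vale.Agent.P352R.En

open Vale.Agent.P352 Vale.Agent.P352.GF Vale.Agent.P352.BW
open Vale.Agent.P352.H246 Vale.Agent.P352.H15 Vale.Agent.P352X L22
open Vale.Agent.P352X.EB.Wb (der Dv_U Dv_fld)
open UniformSpace (Completion)
open Complex (I)

variable {D : Type*} [NormedAddCommGroup D] [InnerProductSpace ℂ D] {Q : Theory D}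
  {A : (V → V) → D → D} {B : Fld D}

theorem K_eq (h : Rep Q A) :
    (fun w => w - I • A (fun _ => bas o 1) w) = (1 - PP h : Module.End ℂ D) := funext fun v =>
  congrArg (v - ·) (h.der (fun _ => 1) (fun _ => GF.one) (fun t => bas o t) (fun _ => bas o 1) v
    rfl rfl (by funext n; simp [bas]) (fun _ => ⟨one_pos, isLor_one⟩) fun n x => by
      simp only [sim, bas]
      split_ifs
      · exact (hasDerivAt_id _).add_const _
      · exact hasDerivAt_const _ _).deriv.symm

theorem nadd {P : Module.End ℂ D} (h : Gn P) (v : D) : ‖v + P v‖ = ‖v - P v‖ := by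
  have a : RCLike.re (inner ℂ v (P v) : ℂ) = 0 := by
    have := congrArg Complex.re ((inner_conj_symm (𝕜 := ℂ) (P v) v).trans (h.anti v v))
    rw [Complex.conj_re, Complex.neg_re] at this
    show (inner ℂ v (P v) : ℂ).re = 0
    linarith
  have b := norm_sub_sq (𝕜 := ℂ) v (P v)
  have c := norm_add_sq (𝕜 := ℂ) v (P v)
  rw [a] at b c
  exact (sq_eq_sq₀ (norm_nonneg _) (norm_nonneg _)).1 (by linarith)

theorem shift {P : Module.End ℂ D} (h : Gn P) {X Y : Module.End ℂ D} {j m : ℕ} {C C' : ℝ}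
    (e : ∀ v, P (X v) = X (P v) - Y v)
    (x : ∀ u v, ‖inner ℂ u (X v)‖ ≤ C * ‖((1 - P) ^ (j + 1)) u‖ * ‖((1 - P) ^ m) v‖)
    (y : ∀ u v, ‖inner ℂ u (Y v)‖ ≤ C' * ‖((1 - P) ^ (j + 1)) u‖ * ‖((1 - P) ^ m) v‖) (u v : D) :
    ‖inner ℂ u (X v)‖ ≤ (|C| + |C'|) * ‖((1 - P) ^ j) u‖ * ‖((1 - P) ^ (m + 1)) v‖ := by
  set c := (|C| + |C'|) with hc
  set b := ‖((1 - P) ^ (m + 1)) v‖ with hb
  have cm : ∀ w, ((1 - P) ^ j) (w + P w) = ((1 + P) * (1 - P) ^ j : Module.End ℂ D) w := fun w => by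
    have : Commute (1 + P) ((1 - P) ^ j) :=
      (((Commute.one_left _).add_left ((Commute.one_right _).sub_right (Commute.refl P)))).pow_right j
    rw [this.eq]; rfl
  have k : ∀ w, ‖inner ℂ (w + P w) (X v)‖ ≤ c * ‖((1 - P) ^ j) (w + P w)‖ * b := fun w => by
    have e1 : inner ℂ (w + P w) (X v) = inner ℂ w (X (v - P v)) + inner ℂ w (Y v) := by
      rw [inner_add_left, h.anti, e, map_sub, inner_sub_right, inner_sub_right]; ring
    have e2 : ‖((1 - P) ^ j) (w + P w)‖ = ‖((1 - P) ^ (j + 1)) w‖ := by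
      rw [cm, ks, ← nadd h]; rfl
    have e3 : ‖((1 - P) ^ m) v‖ ≤ b := by rw [hb, ks]; exact h.le _
    have x1 := x w (v - P v)
    rw [← ks'] at x1
    have y1 := y w v
    rw [e1, e2]
    refine (norm_add_le _ _).trans ?_
    have p := norm_nonneg (((1 - P) ^ (j + 1)) w)
    have q := norm_nonneg (((1 - P) ^ m) v)
    have r : 0 ≤ b := norm_nonneg _
    have s1 := mul_le_mul_of_nonneg_right (mul_le_mul_of_nonneg_right (le_abs_self C) p) r
    have s2 := mul_le_mul (mul_le_mul_of_nonneg_right (le_abs_self C') p) e3 q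
      (mul_nonneg (abs_nonneg _) p)
    rw [hc]; nlinarith
  have key : ‖inner ℂ u (X v)‖ ≤ c * ‖((((1 - P) ^ j) u : D) : Completion D)‖ * b +
      ‖((((1 - P) ^ j) u : D) : Completion D) - (((1 - P) ^ j) u : D)‖ * ‖X v‖ := by
    refine (h.dn j).dr.induction_on (p := fun z => ‖inner ℂ u (X v)‖ ≤ c * ‖z‖ * b +
      ‖((((1 - P) ^ j) u : D) : Completion D) - z‖ * ‖X v‖) _
      (isClosed_le (by fun_prop) (by fun_prop)) fun w => ?_
    rw [← cm, ← Completion.coe_sub, Completion.norm_coe, Completion.norm_coe, ← map_sub,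
      show inner ℂ u (X v) = inner ℂ (w + P w) (X v) + inner ℂ (u - (w + P w)) (X v) by
        rw [inner_sub_left]; ring]
    exact (norm_add_le _ _).trans (add_le_add (k w) ((norm_inner_le_norm _ _).trans
      (mul_le_mul_of_nonneg_right (h.pw _) (norm_nonneg _))))
  simpa using key

/-- **form bounds give operator bounds** -/
theorem pol_of_form (h : Rep Q A) (hB : Q.fld B) (k : ℕ)
    (b : ∀ f, P.In Set.univ f → ∃ C : ℝ, ∀ u v, ‖inner ℂ u (B f v)‖ ≤
      C * ‖(fun w => w - I • A (fun _ => bas o 1) w)^[k] u‖ *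
        ‖(fun w => w - I • A (fun _ => bas o 1) w)^[k] v‖) (f : Fn) (hf : P.In Set.univ f) :
    P.Eb A (2 * k) (B f) := by
  obtain ⟨B', hB', ad⟩ := Q.adj B hB
  unfold P.Eb
  simp only [K_eq h, ← Module.End.pow_apply] at b ⊢
  have t : ∀ i j, i + j = k → ∀ f, P.In Set.univ f → ∃ C : ℝ, ∀ u v, ‖inner ℂ u (B f v)‖ ≤
      C * ‖((1 - PP h) ^ j) u‖ * ‖((1 - PP h) ^ (k + i)) v‖ := by
    intro i
    induction i with
    | zero => intro j e; rw [zero_add] at e; subst e; exact b
    | succ i ih =>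
      intro j e f hf
      have hp := Ap.in_pd o hf
      obtain ⟨C, x⟩ := ih (j + 1) (by omega) f hf
      obtain ⟨C', y⟩ := ih (j + 1) (by omega) _ hp
      exact ⟨_, shift (gn h) (X := lin (B f) _ fun v w => ad f v w hf.1)
        (Y := lin (B (pd o f)) _ fun v w => ad _ v w hp.1)
        (fun v => (Dv_fld h o hB hf.1 v).trans (by rw [add_comm, ← sub_eq_add_neg]; rfl)) x y⟩
  obtain ⟨C, x⟩ := t k 0 rfl f hf
  refine ⟨|C|, fun v => ?_⟩
  have := x (B f v) v
  rw [pow_zero, Module.End.one_apply, inner_self_eq_norm_sq_to_K, ← two_mul] at this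
  simp only [norm_pow, Complex.coe_algebraMap, Complex.norm_real, norm_norm] at this
  rcases (norm_nonneg (B f v)).eq_or_lt with e | e
  · rw [← e]; positivity
  · refine le_of_mul_le_mul_left ?_ e
    nlinarith [mul_le_mul_of_nonneg_right (mul_le_mul_of_nonneg_right (le_abs_self C) e.le)
      (norm_nonneg (((1 - PP h) ^ (2 * k)) v))]

end Vale.Agent.P352R.En
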