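import Vale.Agent.P352R.Fr
import Vale.Agent.P352W.Eb.All
import Vale.Agent.P352R.L22.Net

/-!
# P352R, block En: weighted norms of wave functions (helper49)
-/

set_option autoImplicit false
set_option linter.all false

open MeasureTheory
open scoped ENNReal

namespace Vale.Agent.P352R.En

open Vale.Agent.P352W.Fk Vale.Agent.P352W

/-- the square of the norm with the weight `(1 + E) ^ k` -/
noncomputable def nk (k : ℕ) (ψ : Wf) : ℝ≥0∞ :=
  ∫⁻ c, (1 + Eb.Two.ee (mu c)) ^ (2 * k) * ‖ψ (mu c)‖ₑ ^ 2 ∂Lam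

end Vale.Agent.P352R.En
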