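import Vale.Agent.P352R.En.Df

/-!
# P352R, block En: form bounds for the Wick monomials (helper49)
-/

set_option autoImplicit false
set_option linter.all false

open MeasureTheory
open scoped ENNReal Classical

noncomputable section

namespace Vale.Agent.P352R.En

open Vale.Agent.P352.GF Vale.Agent.P352W.Cn Vale.Agent.P352W.Fk Vale.Agent.P352W
open Vale.Agent.P352W.Eb.Two

/-- the size of a momentum -/
def r (p : V) : ℝ≥0∞ := ENNReal.ofReal (rr p)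

theorem m_r : Measurable r := continuous_rr.measurable.ennreal_ofReal

theorem m_nk {α : Type} [MeasurableSpace α] {F : α → Wf} (h : Ms F) (k : ℕ) :
    Measurable fun z : α × Cf => (1 + ee (mu z.2)) ^ (2 * k) * ‖F z.1 (mu z.2)‖ₑ ^ 2 :=
  ((((Cr.meas_mu mm_ee).comp measurable_snd).const_add 1).pow_const _).mul
    (h.meas.enorm.pow_const _)

theorem nk_mono {k l : ℕ} (h : k ≤ l) (ψ : Wf) : nk k ψ ≤ nk l ψ :=
  lintegral_mono fun c => mul_le_mul_left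
    (pow_le_pow_right₀ le_self_add (Nat.mul_le_mul_left 2 h)) _

theorem rt (x : ℝ≥0∞) : (x ^ (1 / 2 : ℝ)) ^ (2 : ℝ) = x := by
  rw [← ENNReal.rpow_mul]; norm_num

theorem le_rt {a b : ℝ≥0∞} (h : a ^ (2 : ℝ) ≤ b) : a ≤ b ^ (1 / 2 : ℝ) := by
  have := ENNReal.rpow_le_rpow h (by norm_num : (0 : ℝ) ≤ 1 / 2)
  rwa [← ENNReal.rpow_mul, show (2 : ℝ) * (1 / 2) = 1 by norm_num, ENNReal.rpow_one] at this

theorem r0 (p : V) : r p ≠ 0 := (ENNReal.ofReal_pos.2 (rr_pos p)).ne'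

theorem r1 (p : V) : r p ≠ ⊤ := ENNReal.ofReal_ne_top

theorem wi : ∫⁻ p, (e p * r p ^ 6)⁻¹ ∂Om ≠ ⊤ := by
  have hb : Hb 3 1 fun p => (((rr p ^ 3)⁻¹ : ℝ) : ℂ) := fun p => by
    have := rr_pos p
    rw [Complex.norm_real, Real.norm_of_nonneg (by positivity), inv_mul_cancel₀ (by positivity)]
  refine (lt_of_le_of_lt (lintegral_mono fun p => ?_) (Eb.One.s1_lt hb)).ne
  have := rr_pos p
  have hh : ‖(((rr p ^ 3)⁻¹ : ℝ) : ℂ)‖ₑ ^ (2 : ℝ) = (r p ^ 6)⁻¹ := by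
    rw [← ofReal_norm_eq_enorm, Complex.norm_real, Real.norm_of_nonneg (by positivity),
      ENNReal.ofReal_inv_of_pos (by positivity), ENNReal.ofReal_pow this.le, ENNReal.rpow_two,
      ← ENNReal.inv_pow, ← pow_mul, r]
  beta_reduce
  rw [hh, ENNReal.mul_inv (.inr (ENNReal.pow_ne_top (r1 p))) (.inr (pow_ne_zero _ (r0 p))),
    mul_assoc]
  exact le_mul_of_one_le_left' le_self_add

theorem an_pt (a k : ℕ) (χ : Wf) {p : V} (hp : 0 < p o ∧ mdot p p = 0) :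
    e p * r p ^ 6 * ((r p ^ a) ^ 2 * nk k (cn p χ)) ≤ 2 ^ (2 * a + 6) * ∫⁻ c, e p *
      ((1 + ee (p ::ₘ mu c)) ^ (2 * k + (2 * a + 6)) * ‖χ (p ::ₘ mu c)‖ₑ ^ 2) ∂Lam := by
  have rp : r p ≤ 2 * (1 + e p) := by
    have := Bq.norm_null (p := p) ⟨hp.2, hp.1⟩
    rw [r, e, ← ENNReal.ofReal_one, ← ENNReal.ofReal_add zero_le_one hp.1.le,
      ← ENNReal.ofReal_ofNat, ← ENNReal.ofReal_mul zero_le_two]
    exact ENNReal.ofReal_le_ofReal (by unfold rr; linarith [hp.1])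
  have e1 : e p ≠ ⊤ := ENNReal.ofReal_ne_top
  rw [nk, ← lintegral_const_mul' _ _ (ENNReal.pow_ne_top (ENNReal.pow_ne_top (r1 p))),
    ← lintegral_const_mul' _ _ (ENNReal.mul_ne_top e1 (ENNReal.pow_ne_top (r1 p))),
    ← lintegral_const_mul' _ _ (ENNReal.pow_ne_top ENNReal.ofNat_ne_top)]
  refine lintegral_mono fun c => ?_
  have l1 : 1 + e p ≤ 1 + ee (p ::ₘ mu c) := by rw [ee_cons]; gcongr; exact le_self_add
  have l2 : 1 + ee (mu c) ≤ 1 + ee (p ::ₘ mu c) := by rw [ee_cons]; gcongr; exact le_add_self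
  have l3 : r p ≤ 2 * (1 + ee (p ::ₘ mu c)) := rp.trans (mul_le_mul_right l1 _)
  show _ * (_ * (_ * ‖χ (p ::ₘ mu c)‖ₑ ^ 2)) ≤ _
  generalize ‖χ (p ::ₘ mu c)‖ₑ = x
  generalize 1 + ee (p ::ₘ mu c) = y at *
  generalize 1 + ee (mu c) = z at *
  calc _ = e p * (r p ^ (2 * a + 6) * z ^ (2 * k) * x ^ 2) := by ring
    _ ≤ e p * ((2 * y) ^ (2 * a + 6) * y ^ (2 * k) * x ^ 2) :=
        mul_le_mul_right (mul_le_mul_left (mul_le_mul' (pow_le_pow_left' l3 _)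
          (pow_le_pow_left' l2 _)) _) _
    _ = _ := by ring

theorem an_in (N : ℕ) {χ : Wf} (m : Ms fun _ : Unit => χ) :
    ∫⁻ p, ∫⁻ c, e p * ((1 + ee (p ::ₘ mu c)) ^ N * ‖χ (p ::ₘ mu c)‖ₑ ^ 2) ∂Lam ∂Om ≤
      ∫⁻ c, (1 + ee (mu c)) ^ (N + 1) * ‖χ (mu c)‖ₑ ^ 2 ∂Lam := by
  have mc : Ms fun p : V => cn p χ := ms_cn (m.comp (g := fun _ => ()) measurable_const) measurable_id
  have mΦ : MM fun σ => (1 + ee σ) ^ N * ‖χ σ‖ₑ ^ 2 :=
    fun n => (((mm_ee n).const_add 1).pow_const _).mul (mm_sq m n)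
  have me : Measurable fun z : V × Cf => ee (mu z.2) :=
    (Cr.meas_mu mm_ee).comp measurable_snd
  have me' : Measurable fun z : V × Cf => e z.1 := m_e.comp measurable_fst
  have mz : Measurable fun z : V × Cf => e z.1 * ((1 + (e z.1 + ee (mu z.2))) ^ N *
      ‖cn z.1 χ (mu z.2)‖ₑ ^ 2) :=
    me'.mul ((((me'.add me).const_add 1).pow_const _).mul (mc.meas.enorm.pow_const 2))
  have k := mec_an mΦ
  simp only [ee_cons] at k ⊢
  refine ((lintegral_lintegral_swap (f := fun p c => e p * ((1 + (e p + ee (mu c))) ^ N *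
    ‖χ (p ::ₘ mu c)‖ₑ ^ 2)) mz.aemeasurable).trans k).trans_le (lintegral_mono fun c => ?_)
  beta_reduce
  rw [← mul_assoc, pow_succ' (1 + ee (mu c)) N]
  exact mul_le_mul_left (mul_le_mul_left (le_add_self : ee (mu c) ≤ 1 + ee (mu c)) _) _

/-- one annihilation -/
theorem an (a k : ℕ) : ∃ K : ℝ≥0∞, K ≠ ⊤ ∧ ∀ χ : Wf, (Ms fun _ : Unit => χ) →
    ∫⁻ p, r p ^ a * nk k (cn p χ) ^ (1 / 2 : ℝ) ∂Om ≤ K * nk (k + a + 4) χ ^ (1 / 2 : ℝ) := by
  refine ⟨((∫⁻ p, (e p * r p ^ 6)⁻¹ ∂Om) * 2 ^ (2 * a + 6)) ^ (1 / 2 : ℝ),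
    ENNReal.rpow_ne_top_of_nonneg (by norm_num)
    (ENNReal.mul_ne_top wi (ENNReal.pow_ne_top ENNReal.ofNat_ne_top)), fun χ m => ?_⟩
  have mc : Ms fun p : V => cn p χ := ms_cn (m.comp (g := fun _ => ()) measurable_const) measurable_id
  have m1 : Measurable fun p => nk k (cn p χ) := (m_nk mc k).lintegral_prod_right'
  have m2 : Measurable fun p => r p ^ a * nk k (cn p χ) ^ (1 / 2 : ℝ) :=
    (m_r.pow_const a).mul (m1.pow_const _)
  have m3 : Measurable fun p => (e p * r p ^ 6)⁻¹ := (m_e.mul (m_r.pow_const 6)).inv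
  rw [← ENNReal.mul_rpow_of_nonneg _ _ (by norm_num)]
  refine le_rt ((Eb.One.cs m2.aemeasurable m3.aemeasurable (om_ae.mono fun p hp =>
      ⟨ENNReal.inv_ne_zero.2 (ENNReal.mul_ne_top ENNReal.ofReal_ne_top (ENNReal.pow_ne_top (r1 p))),
        ENNReal.inv_ne_top.2 (mul_ne_zero (ENNReal.ofReal_pos.2 hp.1).ne'
          (pow_ne_zero _ (r0 p)))⟩)).trans ?_)
  rw [mul_assoc]
  refine mul_le_mul_right ((lintegral_mono_ae (om_ae.mono fun p hp => ?_)).trans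
    ((lintegral_const_mul' (2 ^ (2 * a + 6)) _ (ENNReal.pow_ne_top ENNReal.ofNat_ne_top)).trans_le
      (mul_le_mul_right ((an_in (2 * k + (2 * a + 6)) m).trans (lintegral_mono fun c =>
        mul_le_mul_left (pow_le_pow_right₀ le_self_add (by omega)) _)) _))) _
  rw [inv_inv, ENNReal.mul_rpow_of_nonneg _ _ zero_le_two, rt, ENNReal.rpow_two]
  exact an_pt a k χ hp

theorem fb0 (a n : ℕ) : ∃ (k : ℕ) (K : ℝ≥0∞), K ≠ ⊤ ∧ ∀ (c : ℝ) (κ ψ χ : Wf),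
    (Ms fun _ : Unit => κ) → (Ms fun _ : Unit => ψ) → (Ms fun _ : Unit => χ) → Sb a 0 c κ →
    ∫⁻ x, ‖χ (mu x)‖ₑ * ‖W n κ ψ (mu x)‖ₑ ∂Lam ≤
      ENNReal.ofReal c * K * nk k χ ^ (1 / 2 : ℝ) * nk k ψ ^ (1 / 2 : ℝ) := by
  induction n with
  | zero =>
    refine ⟨0, 1, ENNReal.one_ne_top, fun c κ ψ χ _ mψ mχ b => ?_⟩
    have b0 : ‖κ 0‖ₑ ≤ ENNReal.ofReal c := by
      have := b 0
      rw [pow_zero, mul_one, wt_zero, one_pow, mul_one] at this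
      rw [← ofReal_norm_eq_enorm]
      exact ENNReal.ofReal_le_ofReal this
    have h := ENNReal.lintegral_mul_le_Lp_mul_Lq Lam Real.HolderConjugate.two_two
      mχ.meas1.enorm.aemeasurable mψ.meas1.enorm.aemeasurable
    simp only [ENNReal.rpow_two, Pi.mul_apply] at h
    calc _ ≤ ∫⁻ x, ENNReal.ofReal c * (‖χ (mu x)‖ₑ * ‖ψ (mu x)‖ₑ) ∂Lam :=
          lintegral_mono fun x => by
            show _ * ‖κ 0 * ψ (mu x)‖ₑ ≤ _
            rw [enorm_mul, mul_left_comm]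
            exact mul_le_mul_left b0 _
      _ ≤ _ := by
          rw [lintegral_const_mul' _ _ ENNReal.ofReal_ne_top, mul_one, mul_assoc]
          refine mul_le_mul_right (h.trans_eq ?_) _
          simp only [nk, mul_zero, pow_zero, one_mul]
  | succ n ih =>
    obtain ⟨k, K, hK, ih⟩ := ih
    obtain ⟨K1, h1, an1⟩ := an a k
    refine ⟨k + a + 4, K * K1 + K * K1, ENNReal.add_ne_top.2
      ⟨ENNReal.mul_ne_top hK h1, ENNReal.mul_ne_top hK h1⟩, fun c κ ψ χ mκ mψ mχ b => ?_⟩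
    have c0 := b.nn
    have par : ∀ {φ : Wf}, (Ms fun _ : Unit => φ) → Ms fun _ : V => φ := fun m =>
      m.comp (g := fun _ => ()) measurable_const
    have one : ∀ {φ : Wf} (p : V), (Ms fun _ : Unit => φ) → Ms fun _ : Unit => cn p φ :=
      fun p m => ms_cn m measurable_const
    have sb : ∀ p, Sb a 0 (c * rr p ^ a) (cn p κ) := fun p => b.cn' p
    have orr : ∀ p, ENNReal.ofReal (c * rr p ^ a) = ENNReal.ofReal c * r p ^ a := fun p => by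
      rw [ENNReal.ofReal_mul c0, ENNReal.ofReal_pow (rr_pos p).le]; rfl
    have le : ∀ φ : Wf, nk k φ ^ (1 / 2 : ℝ) ≤ nk (k + a + 4) φ ^ (1 / 2 : ℝ) := fun φ =>
      ENNReal.rpow_le_rpow (nk_mono (by omega) φ) (by norm_num)
    have w1 : Ms fun p : V => W n (cn p κ) ψ := ms_W n (ms_cn (par mκ) measurable_id) (par mψ)
    have w2 : Ms fun q : V => W n (cn (-q) κ) (cn q ψ) :=
      ms_W n (ms_cn (par mκ) measurable_neg) (ms_cn (par mψ) measurable_id)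
    have x1 : Ms fun p : V => cn p χ := ms_cn (par mχ) measurable_id
    have y1 : Ms fun p : V => cn p ψ := ms_cn (par mψ) measurable_id
    have g1 : ∀ m, Measurable fun z : V × (Fin m → V) =>
        ‖cn z.1 χ (ms z.2)‖ₑ * ‖W n (cn z.1 κ) ψ (ms z.2)‖ₑ := fun m =>
      (x1 m).enorm.mul (w1 m).enorm
    have g1' : Measurable fun z : V × Cf =>
        ‖cn z.1 χ (mu z.2)‖ₑ * ‖W n (cn z.1 κ) ψ (mu z.2)‖ₑ := x1.meas.enorm.mul w1.meas.enorm
    have g2' : Measurable fun z : V × Cf =>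
        ‖χ (mu z.2)‖ₑ * ‖W n (cn (-z.1) κ) (cn z.1 ψ) (mu z.2)‖ₑ :=
      (par mχ).meas.enorm.mul w2.meas.enorm
    have mn : ∀ {F : V → Wf}, Ms F → Measurable fun p => r p ^ a * nk k (F p) ^ (1 / 2 : ℝ) :=
      fun m => (m_r.pow_const a).mul ((m_nk m k).lintegral_prod_right'.pow_const _)
    have t1 : ∫⁻ x, ((mu x).map fun p => ‖cn p χ ((mu x).erase p)‖ₑ *
        ‖W n (cn p κ) ψ ((mu x).erase p)‖ₑ).sum ∂Lam ≤ ENNReal.ofReal c * (K * K1) *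
          nk (k + a + 4) χ ^ (1 / 2 : ℝ) * nk (k + a + 4) ψ ^ (1 / 2 : ℝ) := by
      rw [Cr.mec (G := fun p τ => ‖cn p χ τ‖ₑ * ‖W n (cn p κ) ψ τ‖ₑ) g1,
        ← lintegral_lintegral_swap g1'.aemeasurable]
      calc _ ≤ ∫⁻ p, (ENNReal.ofReal c * K * nk k ψ ^ (1 / 2 : ℝ)) *
            (r p ^ a * nk k (cn p χ) ^ (1 / 2 : ℝ)) ∂Om := lintegral_mono fun p =>
            (ih _ _ _ _ (one p mκ) mψ (one p mχ) (sb p)).trans_eq (by rw [orr]; ring)
        _ ≤ (ENNReal.ofReal c * K * nk (k + a + 4) ψ ^ (1 / 2 : ℝ)) *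
            (K1 * nk (k + a + 4) χ ^ (1 / 2 : ℝ)) := by
            rw [lintegral_const_mul _ (mn x1)]
            exact mul_le_mul' (mul_le_mul_right (le ψ) _) (an1 χ mχ)
        _ = _ := by ring
    have t2 : ∫⁻ x, ∫⁻ q, ‖χ (mu x)‖ₑ * ‖W n (cn (-q) κ) (cn q ψ) (mu x)‖ₑ ∂Om ∂Lam ≤
        ENNReal.ofReal c * (K * K1) *
          nk (k + a + 4) χ ^ (1 / 2 : ℝ) * nk (k + a + 4) ψ ^ (1 / 2 : ℝ) := by
      rw [← lintegral_lintegral_swap g2'.aemeasurable]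
      calc _ ≤ ∫⁻ p, (ENNReal.ofReal c * K * nk k χ ^ (1 / 2 : ℝ)) *
            (r p ^ a * nk k (cn p ψ) ^ (1 / 2 : ℝ)) ∂Om := lintegral_mono fun p =>
            (ih _ _ _ _ (one (-p) mκ) (one p mψ) mχ (sb (-p))).trans_eq (by
              rw [orr, show r (-p) = r p from congrArg ENNReal.ofReal (rr_neg p)]; ring)
        _ ≤ (ENNReal.ofReal c * K * nk (k + a + 4) χ ^ (1 / 2 : ℝ)) *
            (K1 * nk (k + a + 4) ψ ^ (1 / 2 : ℝ)) := by
            rw [lintegral_const_mul _ (mn y1)]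
            exact mul_le_mul' (mul_le_mul_right (le χ) _) (an1 ψ mψ)
        _ = _ := by ring
    rw [mul_add, add_mul, add_mul]
    refine le_trans ?_ (add_le_add t1 t2)
    rw [← lintegral_add_left (Cr.meas_mu (G := fun σ => (σ.map fun p => ‖cn p χ (σ.erase p)‖ₑ *
        ‖W n (cn p κ) ψ (σ.erase p)‖ₑ).sum)
        (Cr.m_dv (G := fun p τ => ‖cn p χ τ‖ₑ * ‖W n (cn p κ) ψ τ‖ₑ) g1))]
    refine lintegral_mono fun x => ?_
    generalize mu x = σ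
    refine (mul_le_mul_right (enorm_add_le _ _) _).trans ?_
    rw [mul_add]
    refine add_le_add ((mul_le_mul_right (enorm_dv _ σ) _).trans ?_) ?_
    · rw [← Multiset.sum_map_mul_left]
      refine Multiset.sum_map_le_sum_map _ _ fun p hp => ?_
      rw [cn, Multiset.cons_erase hp, Pi.smul_apply, smul_eq_mul, enorm_mul]
      refine mul_le_mul_right (mul_le_of_le_one_left' ?_) _
      unfold ci
      split_ifs <;> simp
    · rw [lintegral_const_mul _ (w2.par σ).enorm]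
      exact mul_le_mul_right (enorm_integral_le_lintegral_enorm _) _

/-- **form bounds** -/
theorem fb (n a : ℕ) : ∃ (k : ℕ) (K : ℝ), ∀ (c : ℝ) (κ ψ χ : Wf), (Ms fun _ : Unit => κ) →
    (Ms fun _ : Unit => ψ) → (Ms fun _ : Unit => χ) → Sb a 0 c κ → nk k χ ≠ ⊤ → nk k ψ ≠ ⊤ →
    ‖ip χ (W n κ ψ)‖ ≤ c * K * √(nk k χ).toReal * √(nk k ψ).toReal := by
  obtain ⟨k, K, hK, h⟩ := fb0 a n
  refine ⟨k, K.toReal, fun c κ ψ χ mκ mψ mχ b n1 n2 => ?_⟩
  have t : ‖ip χ (W n κ ψ)‖ₑ ≤ _ := (enorm_integral_le_lintegral_enorm _).trans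
    ((lintegral_mono fun x => by rw [enorm_mul, RCLike.enorm_conj]).trans (h c κ ψ χ mκ mψ mχ b))
  have := ENNReal.toReal_mono (ENNReal.mul_ne_top (ENNReal.mul_ne_top (ENNReal.mul_ne_top
    ENNReal.ofReal_ne_top hK) (ENNReal.rpow_ne_top_of_nonneg (by norm_num) n1))
    (ENNReal.rpow_ne_top_of_nonneg (by norm_num) n2)) t
  rwa [toReal_enorm, ENNReal.toReal_mul, ENNReal.toReal_mul, ENNReal.toReal_mul,
    ENNReal.toReal_ofReal b.nn, ← ENNReal.toReal_rpow, ← ENNReal.toReal_rpow,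
    ← Real.sqrt_eq_rpow, ← Real.sqrt_eq_rpow] at this

theorem nk_ne (k : ℕ) {ψ : Wf} (h : Nice ψ) : nk k ψ ≠ ⊤ := by
  obtain ⟨C, b⟩ := h.2 (k + 2)
  refine (lt_of_le_of_lt (lintegral_mono_ae ?_) (int_wt.const_mul (C ^ 2)).2).ne
  filter_upwards [ae_null] with c hc
  have a0 : 0 ≤ Eb.En (mu c) := by
    rw [Eb.En, mu, sum_ms]
    exact Finset.sum_nonneg fun i _ => (hc i).1.le
  have a1 : ee (mu c) = ENNReal.ofReal (Eb.En (mu c)) := by
    rw [ee, Eb.En, mu, sum_ms, sum_ms, ENNReal.ofReal_sum_of_nonneg fun i _ => (hc i).1.le]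
    rfl
  have w := wt_pos (mu c)
  have w1 := wt_one (mu c)
  have a2 : 1 + Eb.En (mu c) ≤ wt (mu c) := (le_abs_self _).trans (en_le _)
  rw [a1, ← ENNReal.ofReal_one, ← ENNReal.ofReal_add zero_le_one a0, ← ofReal_norm_eq_enorm,
    ← ENNReal.ofReal_pow (by positivity), ← ENNReal.ofReal_pow (norm_nonneg _),
    ← ENNReal.ofReal_mul (by positivity), ← ofReal_norm_eq_enorm,
    Real.norm_of_nonneg (r := C ^ 2 * _) (by positivity)]
  refine ENNReal.ofReal_le_ofReal ?_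
  rw [← div_eq_mul_inv, le_div_iff₀ (by positivity)]
  calc _ ≤ wt (mu c) ^ (2 * k) * ‖ψ (mu c)‖ ^ 2 * wt (mu c) ^ 4 := by gcongr; norm_num
    _ = (‖ψ (mu c)‖ * wt (mu c) ^ (k + 2)) ^ 2 := by ring
    _ ≤ _ := pow_le_pow_left₀ (by positivity) (b _) 2

/-- **form bounds**, for good wave functions -/
theorem fb' (n a : ℕ) : ∃ (k : ℕ) (K : ℝ), ∀ (c : ℝ) (κ ψ χ : Wf), (Ms fun _ : Unit => κ) →
    Nice ψ → Nice χ → Sb a 0 c κ →
    ‖ip χ (W n κ ψ)‖ ≤ c * K * √(nk k χ).toReal * √(nk k ψ).toReal :=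
  have ⟨k, K, h⟩ := fb n a
  ⟨k, K, fun c κ ψ χ m p q b => h c κ ψ χ m p.1 q.1 b (nk_ne k q) (nk_ne k p)⟩

end Vale.Agent.P352R.En
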