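import Vale.Agent.P352R.Fr
import Vale.Agent.P352W.Eb.All
import Vale.Agent.P352R.L22.Pub

/-!
# P352R, block En: the weighted norms are bounded by powers of the generator (helper15)
-/

set_option autoImplicit false
set_option linter.all false

open MeasureTheory Filter Topology
open scoped ENNReal ComplexConjugate

noncomputable section

namespace Vale.Agent.P352R.En.L15

open Vale.Agent.P352 Vale.Agent.P352.GF Vale.Agent.P352W Vale.Agent.P352W.Cn
open Vale.Agent.P352W.Fk hiding Wd IsD D0 D rep mk op Ω Ph Tm UU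
open Vale.Agent.P352W.Eb (En NE)
open Complex (I)

theorem der1 {X : Type} [MeasurableSpace X] {m : Measure X} {e : X → ℝ} {u χ : X → ℂ}
    (me : Measurable e) (mu : Measurable u) (mc : Measurable χ)
    (i1 : Integrable (fun c => conj (χ c) * u c) m)
    (i2 : Integrable (fun c => conj (χ c) * (I * (e c * u c))) m) :
    HasDerivAt (fun t : ℝ => ∫ c, conj (χ c) * (Complex.exp (I * (e c * t : ℝ)) * u c) ∂m)
      (∫ c, conj (χ c) * (I * (e c * u c)) ∂m) 0 := by
  have mE : Measurable fun c => (e c : ℂ) := Complex.measurable_ofReal.comp me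
  have mχ : Measurable fun c => conj (χ c) := Complex.continuous_conj.measurable.comp mc
  have mx : ∀ t : ℝ, Measurable fun c => Complex.exp (I * (e c * t : ℝ)) := fun t =>
    ((Complex.measurable_ofReal.comp (me.mul_const t)).const_mul _).cexp
  have key := hasDerivAt_integral_of_dominated_loc_of_deriv_le (μ := m) (x₀ := (0 : ℝ))
    (s := Set.univ)
    (F := fun t c => conj (χ c) * (Complex.exp (I * (e c * t : ℝ)) * u c))
    (F' := fun t c => conj (χ c) * (Complex.exp (I * (e c * t : ℝ)) * (I * e c) * u c))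
    (bound := fun c => ‖conj (χ c) * (I * (e c * u c))‖) univ_mem
    (Eventually.of_forall fun t => (mχ.mul ((mx t).mul mu)).aestronglyMeasurable)
    (by simpa only [mul_zero, Complex.ofReal_zero, Complex.exp_zero, one_mul] using i1)
    (mχ.mul (((mx 0).mul (mE.const_mul _)).mul mu)).aestronglyMeasurable
    (Eventually.of_forall fun c t _ => by
      simp only [norm_mul, Sp.ex_norm, Complex.norm_I, Complex.norm_conj]
      exact le_of_eq (by ring))
    i2.norm
    (Eventually.of_forall fun c t _ => by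
      have a : HasDerivAt (fun t : ℝ => I * (e c * t : ℝ)) (I * e c) t := by
        have := ((hasDerivAt_id t).const_mul (e c)).ofReal_comp.const_mul I
        simpa using this
      exact (a.cexp.mul_const _).const_mul _)
  refine key.2.congr_deriv (integral_congr_ae (Eventually.of_forall fun c => ?_))
  simp only [mul_zero, Complex.ofReal_zero, Complex.exp_zero, one_mul]
  ring

theorem one_lor : IsLor GF.one := P352.isLor_one

theorem der_val (v y : D) (h : HasDerivAt (fun t : ℝ => UU 1 GF.one (bas o t) v) y 0) :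
    y.1 = toL (I • fun σ => (En σ : ℂ) * rep v σ) := by
  have hψ := k2.nice (k2.wr v)
  have hφ := (Eb.G4.nice_en hψ).smul I
  set φ : Wf := I • fun σ => (En σ : ℂ) * rep v σ with eφ
  have hχ := (k2.nice (k2.wr y)).sub hφ
  have eχ : toL (rep y - φ) = y.1 - toL φ := by
    rw [toL_sub (k2.nice (k2.wr y)) hφ, (k2.rs y).2]
  set χ : Wf := rep y - φ
  have h1 := Eb.G4.lin h ((innerSL ℂ (toL χ)).comp D0.subtypeL)
  have e1 : (fun t : ℝ => ((innerSL ℂ (toL χ)).comp D0.subtypeL) (UU 1 GF.one (bas o t) v)) =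
      fun t : ℝ => ∫ c, conj (χ (mu c)) *
        (Complex.exp (I * (En (mu c) * t : ℝ)) * rep v (mu c)) ∂Lam := by
    funext t
    have w := k2.gm (bas o t) one_pos one_lor (k2.wr v)
    have : ip χ (gm 1 GF.one (bas o t) (rep v)) = ∫ c, conj (χ (mu c)) *
        (Complex.exp (I * (En (mu c) * t : ℝ)) * rep v (mu c)) ∂Lam := by
      unfold ip Fk.lam
      simp only [gm_tr, Eb.G4.md_bas, Eb.G4.en_mu]
    rw [← this, ← inner_toL hχ (k2.nice w), ← K2.mk_val w]
    rfl
  rw [e1] at h1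
  have mE : Measurable fun c => En (mu c) := by
    simp only [Eb.G4.en_mu]
    exact (measurable_pi_apply o).comp meas_tot
  have h2 := (der1 (m := Lam) (u := fun c => rep v (mu c)) (χ := fun c => χ (mu c)) mE
    hψ.1.meas1 hχ.1.meas1
    (Nice.int (ψ := fun σ => conj (χ σ) * rep v σ) (hχ.conj.mul hψ))
    (Nice.int (ψ := fun σ => conj (χ σ) * φ σ) (hχ.conj.mul hφ))).unique h1
  have h3 : inner ℂ (toL χ) (toL φ) = inner ℂ (toL χ) y.1 := (inner_toL hχ hφ).trans h2
  rw [← sub_eq_zero, ← eχ, ← inner_self_eq_zero (𝕜 := ℂ)]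
  nth_rewrite 2 [eχ]
  rw [inner_sub_right, h3, sub_self]

variable {K : D → D}

theorem it_ae (h : ∀ v, HasDerivAt (fun t : ℝ => UU 1 GF.one (bas o t) v) (v - K v) 0) (k : ℕ)
    (v : D) : ∀ᵐ c ∂Lam, (K^[k] v).1 c = (1 - I * En (mu c)) ^ k * rep v (mu c) := by
  induction k with
  | zero =>
    filter_upwards [toL_ae (k2.nice (k2.wr v)).memLp] with c a
    rw [(k2.rs v).2] at a
    simpa using a
  | succ k ih =>
    rw [Function.iterate_succ_apply']
    set w := K^[k] v
    have hψ := k2.nice (k2.wr w)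
    have hφ := (Eb.G4.nice_en hψ).smul I
    have e : (K w).1 = toL (rep w - I • fun σ => (En σ : ℂ) * rep w σ) := by
      rw [toL_sub hψ hφ, ← der_val w _ (h w), (k2.rs w).2, Submodule.coe_sub, sub_sub_cancel]
    filter_upwards [ih, toL_ae hψ.memLp, toL_ae (hψ.sub hφ).memLp] with c a b d
    rw [(k2.rs w).2, a] at b
    rw [e, d, pow_succ]
    simp only [Pi.sub_apply, Pi.smul_apply, smul_eq_mul, ← b]
    ring

theorem lk0 (h : ∀ v, HasDerivAt (fun t : ℝ => UU 1 GF.one (bas o t) v) (v - K v) 0) (k : ℕ)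
    (v : D) : √(∫⁻ c, (1 + Eb.Two.ee (mu c)) ^ (2 * k) * ‖rep v (mu c)‖ₑ ^ 2 ∂Lam).toReal ≤
      2 ^ k * ‖K^[k] v‖ := by
  set f : Fo := (K^[k] v).1 with hf
  have e : ∫⁻ c, ‖f c‖ₑ ^ 2 ∂Lam = eLpNorm f 2 Lam ^ 2 := by
    have := eLpNorm_nnreal_pow_eq_lintegral (f := f) (μ := Lam) (p := 2) two_ne_zero
    simpa [ENNReal.rpow_two] using this.symm
  have b : ∫⁻ c, (1 + Eb.Two.ee (mu c)) ^ (2 * k) * ‖rep v (mu c)‖ₑ ^ 2 ∂Lam ≤
      (2 ^ k) ^ 2 * eLpNorm f 2 Lam ^ 2 := by
    rw [← e, ← lintegral_const_mul' _ _ (by finiteness)]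
    refine lintegral_mono_ae ?_
    filter_upwards [ae_null, it_ae h k v] with c hc a
    have a0 : 0 ≤ En (mu c) := by
      rw [En, mu, sum_ms]
      exact Finset.sum_nonneg fun i _ => (hc i).1.le
    have a1 : Eb.Two.ee (mu c) = ENNReal.ofReal (En (mu c)) := by
      rw [Eb.Two.ee, En, mu, sum_ms, sum_ms, ENNReal.ofReal_sum_of_nonneg fun i _ => (hc i).1.le]
      rfl
    have a2 : 1 + En (mu c) ≤ 2 * ‖(1 - I * En (mu c) : ℂ)‖ := by
      have r := Complex.abs_re_le_norm (1 - I * En (mu c) : ℂ)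
      have s := Complex.abs_im_le_norm (1 - I * En (mu c) : ℂ)
      simp at r s
      rw [abs_of_nonneg a0] at s
      linarith
    have a3 : 1 + Eb.Two.ee (mu c) ≤ 2 * ‖(1 - I * En (mu c) : ℂ)‖ₑ := by
      rw [a1, ← ENNReal.ofReal_one, ← ENNReal.ofReal_add zero_le_one a0, ← ofReal_norm_eq_enorm,
        ← ENNReal.ofReal_ofNat 2, ← ENNReal.ofReal_mul zero_le_two]
      exact ENNReal.ofReal_le_ofReal a2
    rw [a, enorm_mul, enorm_pow, mul_pow, ← mul_assoc, ← mul_pow (2 ^ k), ← mul_pow 2,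
      mul_comm 2 k, pow_mul]
    gcongr
  have n : eLpNorm f 2 Lam ≠ ⊤ := Lp.eLpNorm_ne_top f
  have c := ENNReal.toReal_mono (by finiteness) b
  rw [ENNReal.toReal_mul, ENNReal.toReal_pow, ENNReal.toReal_pow, ENNReal.toReal_pow,
    ← Lp.norm_def, ← mul_pow, ENNReal.toReal_ofNat] at c
  exact Real.sqrt_le_iff.2 ⟨by positivity, c⟩

variable {Q : Theory D} {A : (V → V) → D → D}

theorem hder (hU : Q.U = UU) (hA : H15.Rep Q A) (v : D) :
    HasDerivAt (fun t : ℝ => UU 1 GF.one (bas o t) v)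
      (v - (fun w => w - I • A (fun _ => bas o 1) w) v) 0 := by
  rw [← hU]
  simp only [sub_sub_cancel]
  exact hA.der (fun _ => 1) (fun _ => GF.one) (fun t => bas o t) (fun _ => bas o 1) v
    rfl rfl (by funext n; simp [bas]) (fun _ => ⟨one_pos, one_lor⟩) fun n x => by
      simp only [sim, bas]
      split_ifs
      · exact (hasDerivAt_id _).add_const _
      · exact hasDerivAt_const _ _

/-- LK1; the left side is `√(nk k (rep v)).toReal`, and `hU` is `rfl` for `fr.th`, `fr.tq`. -/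
theorem lk (hU : Q.U = UU) (hA : H15.Rep Q A) (k : ℕ) (v : D) :
    √(∫⁻ c, (1 + Eb.Two.ee (mu c)) ^ (2 * k) * ‖rep v (mu c)‖ₑ ^ 2 ∂Lam).toReal ≤
      2 ^ k * ‖(fun w => w - I • A (fun _ => bas o 1) w)^[k] v‖ :=
  lk0 (hder hU hA) k v

/-- LK2 -/
theorem ph_eb (hU : Q.U = UU) (hA : H15.Rep Q A) (f : Fn) (hf : P.In Set.univ f) :
    P.Eb A 1 (Ph f) := by
  obtain ⟨C, b⟩ := Eb.eb_ph (Ct.hs_ft hf.1)
  refine ⟨|C| * 2, fun v => ?_⟩
  have n := k2.nice (k2.wr v)
  have a := lk hU hA 1 v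
  have e : ∫⁻ c, (1 + Eb.Two.ee (mu c)) ^ (2 * 1) * ‖rep v (mu c)‖ₑ ^ 2 ∂Lam =
      ENNReal.ofReal (NE (rep v) ^ 2) := Eb.Two.ne_eq n
  rw [e, ENNReal.toReal_ofReal (sq_nonneg _), Real.sqrt_sq (Eb.NE_nn _), pow_one] at a
  calc ‖Ph f v‖ = ‖toL (ph (ft f) (rep v))‖ := by rw [← k2.ph_val hf.1 v]; rfl
    _ ≤ C * NE (rep v) := b _ n
    _ ≤ |C| * (2 * _) := mul_le_mul (le_abs_self C) a (Eb.NE_nn _) (abs_nonneg C)
    _ = _ := by rw [mul_assoc]

end Vale.Agent.P352R.En.L15
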