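import Vale.Agent.P352R.En.Fb
import Vale.Agent.P352R.Gl
import Vale.Agent.P352R.En.Lk2
import Vale.Agent.P352R.En.Ab

/-!
# P352R, block En: energy bounds for all Wick monomials (helper11)
-/

set_option autoImplicit false
set_option linter.all false

open MeasureTheory

noncomputable section

namespace Vale.Agent.P352R.En.M11

open Vale.Agent.P352 Vale.Agent.P352.GF Vale.Agent.P352W Vale.Agent.P352W.Cn
open Vale.Agent.P352W.Fk hiding Wd IsD D0 D rep mk op Ω Ph Tm UU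
open Vale.Agent.P352W.Eb (NE)
open Complex (I)

theorem sb_kS {n k : ℕ} (π : Fin k → Fin n) (μ : Fin k → Ix) {f : Fn} (hf : IsTest f) :
    ∃ c, Sb (k + n) 0 c (kS n (tm π μ) f) := by
  obtain ⟨C, hC⟩ := (Kr.hs_ft hf).2 0
  have b := Cv.bd_sy n k (Cv.bd_tm π μ)
  refine ⟨1 * C, fun σ => ?_⟩
  rw [kS, norm_mul, mul_assoc, mul_right_comm]
  exact mul_le_mul (b σ) (hC _) (mul_nonneg (norm_nonneg _) (pow_pos (rr_pos _) 0).le)
    ((norm_nonneg _).trans (b σ))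

variable {Q : Theory D} {A : (V → V) → D → D}

theorem tm_eb (hU : Q.U = UU) (hA : H15.Rep Q A) (m n : Ix) (f : Fn) (hf : P.In Set.univ f) :
    P.Eb A 1 (Tm m n f) := by
  obtain ⟨C, b⟩ := Eb.eb_T m n f hf.1
  refine ⟨|C| * 2, fun v => ?_⟩
  have h := k2.nice (k2.wr v)
  have a := L15.lk hU hA 1 v
  have e : ∫⁻ c, (1 + Eb.Two.ee (mu c)) ^ (2 * 1) * ‖rep v (mu c)‖ₑ ^ 2 ∂Lam =
      ENNReal.ofReal (NE (rep v) ^ 2) := Eb.Two.ne_eq h
  rw [e, ENNReal.toReal_ofReal (sq_nonneg _), Real.sqrt_sq (Eb.NE_nn _), pow_one] at a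
  calc ‖Tm m n f v‖ = ‖toL (qq (kT m n f) (rep v))‖ := by rw [← k2.tm_val m n hf.1 v]; rfl
    _ ≤ C * NE (rep v) := b _ h
    _ ≤ |C| * (2 * _) := mul_le_mul (le_abs_self C) a (Eb.NE_nn _) (abs_nonneg C)
    _ = _ := by rw [mul_assoc]

theorem form (hU : Q.U = UU) (hA : H15.Rep Q A) {n k : ℕ} (π : Fin k → Fin n) (μ : Fin k → Ix) :
    ∃ j, ∀ f, P.In Set.univ f → ∃ C : ℝ, ∀ u v, ‖inner ℂ u (Mo π μ f v)‖ ≤
      C * ‖(fun w => w - I • A (fun _ => bas o 1) w)^[j] u‖ *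
        ‖(fun w => w - I • A (fun _ => bas o 1) w)^[j] v‖ := by
  obtain ⟨j, K, h⟩ := fb' n (k + n)
  refine ⟨j, fun f hf => ?_⟩
  obtain ⟨c, b⟩ := sb_kS π μ hf.1
  refine ⟨|c * K| * 2 ^ j * 2 ^ j, fun u v => ?_⟩
  have e : inner ℂ u (Mo π μ f v) = ip (rep u) (W n (kS n (tm π μ) f) (rep v)) := by
    conv_lhs => rw [← k2.mk_rep u]
    exact k2.inner_mk (k2.wr u) ((k2.wr v).wk π μ hf.1)
  have x : √(nk j (rep u)).toReal ≤ _ := L15.lk hU hA j u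
  have y : √(nk j (rep v)).toReal ≤ _ := L15.lk hU hA j v
  rw [e]
  refine (h c _ _ _ (Cv.gs_tm π μ hf.1).1 (k2.nice (k2.wr v)) (k2.nice (k2.wr u)) b).trans ?_
  refine (mul_le_mul (mul_le_mul (le_abs_self _) x (Real.sqrt_nonneg _) (abs_nonneg _)) y
    (Real.sqrt_nonneg _) (by positivity)).trans_eq ?_
  ring

/-- **all generators are bounded by powers of the energy** -/
theorem mo {A : (V → V) → D → D} (hA : H15.Rep fr.th A) :
    ∀ B f, FP B → P.In Set.univ f → ∃ k, P.Eb A k (B f) := by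
  intro B f hB hf
  rcases id hB with rfl | ⟨m, n, rfl⟩ | ⟨n, k, π, μ, rfl⟩
  · exact ⟨1, L15.ph_eb rfl hA f hf⟩
  · exact ⟨1, tm_eb rfl hA m n f hf⟩
  · obtain ⟨j, h⟩ := form rfl hA π μ
    exact ⟨_, pol_of_form hA hB j h f hf⟩

end Vale.Agent.P352R.En.M11
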