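import Vale.Agent.P352R.En.Fb
import Vale.Agent.P352R.En.Lk2
import Vale.Agent.P352R.En.Ab
import Vale.Agent.P352R.Gl

/-!
# P352R, block En: polynomial energy bounds for all Wick polynomials (helper49)
-/

set_option autoImplicit false
set_option linter.all false

open MeasureTheory
open scoped ENNReal

noncomputable section

namespace Vale.Agent.P352R.En

open Vale.Agent.P352 Vale.Agent.P352.GF Vale.Agent.P352W Vale.Agent.P352W.Cn
open Vale.Agent.P352W.Fk hiding Wd IsD D0 D rep mk op Ω Ph Tm UU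
open Vale.Agent.P352W.Eb (En NE)
open Vale.Agent.P352L.StA (sp_ind)
open Complex (I)

theorem eb_mono {E : Type*} [NormedAddCommGroup E] [InnerProductSpace ℂ E] {Q : Theory E}
    {A : (V → V) → E → E} (h : H15.Rep Q A) {k l : ℕ} {X : E → E} (e : P.Eb A k X) (le : k ≤ l) :
    ∃ C : ℝ, 0 ≤ C ∧ ∀ v, ‖X v‖ ≤ C * ‖(fun w => w - I • A (fun _ => bas o 1) w)^[l] v‖ := by
  obtain ⟨C, c⟩ := e
  obtain ⟨j, rfl⟩ := Nat.exists_eq_add_of_le' le
  refine ⟨|C|, abs_nonneg C, fun v => (c v).trans (mul_le_mul (le_abs_self C) ?_ (norm_nonneg _)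
    (abs_nonneg C))⟩
  rw [Function.iterate_add_apply]
  generalize (fun w => w - I • A (fun _ => bas o 1) w)^[k] v = x
  rw [K_eq h, ← Module.End.pow_apply]
  exact (L22.gn h).pw x

variable {Q : Theory D} {A : (V → V) → D → D}

theorem tm_eb (hU : Q.U = UU) (hA : H15.Rep Q A) (m n : Ix) (f : Fn) (hf : P.In Set.univ f) :
    P.Eb A 1 (Tm m n f) := by
  obtain ⟨C, b⟩ := Eb.eb_T m n f hf.1
  refine ⟨|C| * 2, fun v => ?_⟩
  have h := k2.nice (k2.wr v)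
  have a := L15.lk hU hA 1 v
  have e : ∫⁻ c, (1 + Eb.Two.ee (mu c)) ^ (2 * 1) * ‖rep v (mu c)‖ₑ ^ 2 ∂Lam =
      ENNReal.ofReal (NE (rep v) ^ 2) := Eb.Two.ne_eq h
  rw [e, ENNReal.toReal_ofReal (sq_nonneg _), Real.sqrt_sq (Eb.NE_nn _), pow_one] at a
  calc ‖Tm m n f v‖ = ‖toL (qq (kT m n f) (rep v))‖ := by
        rw [← K2.mk_val (Wd.qq m n hf.1 (k2.wr v))]; rfl
    _ ≤ C * NE (rep v) := b _ h
    _ ≤ |C| * (2 * _) := mul_le_mul (le_abs_self C) a (Eb.NE_nn _) (abs_nonneg C)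
    _ = _ := by rw [mul_assoc]

theorem mo_eb (hU : Q.U = UU) (hA : H15.Rep Q A) {n k : ℕ} (π : Fin k → Fin n) (μ : Fin k → Ix)
    (hB : Q.fld (Mo π μ)) : ∃ j, ∀ f, P.In Set.univ f → P.Eb A j (Mo π μ f) := by
  obtain ⟨j, K, h⟩ := fb' n (k + n)
  refine ⟨2 * j, pol_of_form hA hB j fun f hf => ?_⟩
  obtain ⟨C, hC⟩ := (Ct.hs_ft hf.1).2 0
  have s : Sb (k + n) 0 (1 * C) (kS n (tm π μ) f) := fun σ => by
    rw [kS, norm_mul, mul_assoc, mul_right_comm]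
    exact mul_le_mul (Cv.bd_sy n k (Cv.bd_tm π μ) σ) (hC _)
      (mul_nonneg (norm_nonneg _) (pow_pos (rr_pos _) 0).le)
      ((norm_nonneg _).trans (Cv.bd_sy n k (Cv.bd_tm π μ) σ))
  refine ⟨|1 * C * K| * 2 ^ j * 2 ^ j, fun u v => ?_⟩
  have g := Cv.gs_tm π μ hf.1
  have nu := k2.nice (k2.wr u)
  have nv := k2.nice (k2.wr v)
  have e : inner ℂ u (Mo π μ f v) = ip (rep u) (W n (kS n (tm π μ) f) (rep v)) := by
    rw [← inner_toL nu (nice_W n g nv), (k2.rs u).2, ← K2.mk_val (Wd.wk π μ hf.1 (k2.wr v))]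
    rfl
  rw [e]
  refine (h _ _ _ _ g.1 nv nu s).trans ?_
  have a : √(nk j (rep u)).toReal ≤ _ := L15.lk hU hA j u
  have b : √(nk j (rep v)).toReal ≤ _ := L15.lk hU hA j v
  refine (mul_le_mul (mul_le_mul (le_abs_self _) a (Real.sqrt_nonneg _) (abs_nonneg _)) b
    (Real.sqrt_nonneg _) (by positivity)).trans_eq ?_
  ring

/-- **polynomial energy bounds for all Wick polynomials** -/
theorem pol {A : (V → V) → D → D} (hA : H15.Rep fr.tq A) (B : Fld D) (f : Fn)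
    (hB : fr.tq.fld B) (hf : P.In Set.univ f) : ∃ k, P.Eb A k (B f) := by
  refine sp_ind (p := fun B => ∃ k, P.Eb A k (B f)) hB ?_ ⟨0, 0, fun v => by simp⟩ ?_
  · rintro B (rfl | ⟨m, n, rfl⟩ | ⟨n, k, π, μ, rfl⟩)
    · exact ⟨1, L15.ph_eb rfl hA f hf⟩
    · exact ⟨1, tm_eb rfl hA m n f hf⟩
    · exact (mo_eb rfl hA π μ (P352L.StA.sp_of (.inr (.inr ⟨n, k, π, μ, rfl⟩)))).imp
        fun _ h => h f hf
  · rintro B C a ⟨k, p⟩ ⟨l, q⟩
    obtain ⟨x, -, p⟩ := eb_mono hA p (le_max_left k l)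
    obtain ⟨y, -, q⟩ := eb_mono hA q (le_max_right k l)
    refine ⟨max k l, x + ‖a‖ * y, fun v => (norm_add_le _ _).trans ?_⟩
    rw [norm_smul, add_mul, mul_assoc]
    exact add_le_add (p v) (mul_le_mul_of_nonneg_left (q v) (norm_nonneg _))

/-- the generators -/
theorem mo {A : (V → V) → D → D} (hA : H15.Rep fr.th A) : ∀ B f, FP B → P.In Set.univ f →
    ∃ k, P.Eb A k (B f) := by
  rintro B f (rfl | ⟨m, n, rfl⟩ | ⟨n, k, π, μ, rfl⟩) hf
  · exact ⟨1, L15.ph_eb rfl hA f hf⟩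
  · exact ⟨1, tm_eb rfl hA m n f hf⟩
  · exact (mo_eb rfl hA π μ (.inr (.inr ⟨n, k, π, μ, rfl⟩))).imp fun _ h => h f hf

end Vale.Agent.P352R.En
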