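import Vale.Agent.P352R.Cf.WitR
import Vale.Agent.P352R.En.Ab

/-!
# P352R, block En: the free field alone generates the Hilbert space (helper22)
-/

set_option autoImplicit false
set_option linter.all false

noncomputable section

namespace Vale.Agent.P352R.Fr

open P352 GF H246 H15 BW P352X P352W P352W.Net
open P352L.StA (hull sp_of sp_ind)
open UniformSpace (Completion)
open Filter Topology

variable {E : Type*} [NormedAddCommGroup E] [InnerProductSpace ℂ E]

variable {Ω : E} {φ : Fld E} {T : Ix → Ix → Fld E} {U : ℝ → (Ix → V) → V → E → E}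
  {F : Fld E → Prop} (h : Fr Ω φ T U F)

include h in
theorem cyc (S : Submodule ℂ E) (h0 : Ω ∈ S) (k : ∀ f v, IsTest f → v ∈ S → φ f v ∈ S) :
    Dense (S : Set E) := by
  obtain ⟨P, ex, fl⟩ := h.fil
  have an : Ana φ := ana_of h.scalar P ex (fun f n v hf => (fl f hf).1 n v) fun f hf => (fl f hf).2
  let K : Submodule ℂ (Completion E) :=
    (S.map (Completion.toComplL : E →L[ℂ] Completion E).toLinearMap).topologicalClosure
  have cl : IsClosed (K : Set (Completion E)) := Submodule.isClosed_topologicalClosure _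
  haveI : CompleteSpace K := cl.completeSpace_coe
  have m (v : E) (hv : v ∈ S) : (v : Completion E) ∈ K :=
    Submodule.le_topologicalClosure _ ⟨v, hv, rfl⟩
  have inv : ∀ g ∈ Net.gen φ Set.univ, ∀ z ∈ K, g z ∈ K := by
    rintro _ ⟨f, X, hf, e, hX, rfl⟩ z hz
    refine closure_minimal (t := Net.W X ⁻¹' K) ?_ (cl.preimage (Net.W X).continuous) hz
    rintro _ ⟨v, hv, rfl⟩
    have p (n : ℕ) : (X ^ n) v ∈ S := by
      induction n with
      | zero => exact hv
      | succ n ih => rw [pow_succ', Module.End.mul_apply, hX]; exact k _ _ hf.1 ih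
    exact cl.mem_of_tendsto ((an f X hf.1 e hX).hs v).tendsto_sum_nat
      (.of_forall fun n => K.sum_mem fun i _ => m _ (S.smul_mem _ (p i)))
  have st := gen_star (Q := h.th) h.pφ an Set.univ
  have c : K.starProjection ∈ (net φ Set.univ).commutant := by
    rw [net, vn_comm, mem_cmt st]
    intro g hg
    ext z
    refine (Submodule.eq_starProjection_of_mem_of_inner_eq_zero
      (inv g hg _ (K.starProjection_apply_mem z)) fun w hw => ?_).symm
    show inner ℂ (g z - _) w = 0
    rw [← map_sub, ← ContinuousLinearMap.adjoint_inner_right]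
    exact K.starProjection_inner_eq_zero _ _ (inv _ (st g hg) w hw)
  have a := h.gen (K.comap (Completion.toComplL : E →L[ℂ] Completion E).toLinearMap) (m _ h0)
    fun B f v hB ⟨G, hG⟩ hv => by
      subst hG
      refine cl.mem_of_tendsto (((Completion.continuous_coe E).comp (h.cont B v hB)).tendsto G |>.comp
        (EB.Ana.lim G)) (.of_forall fun n => ?_)
      have i := EB.ana_row.inn n (ev G) ⟨G, rfl⟩
      rw [← EB.Ana.ev_P] at i
      have i' : In Set.univ (ev (EB.Ana.P n G)) := ⟨i.1, i.2.1, Set.subset_univ _⟩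
      refine Submodule.starProjection_eq_self_iff.1 (ext_inner_left ℂ fun z => ?_)
      refine Completion.induction_on z (isClosed_eq (by fun_prop) (by fun_prop)) fun w => ?_
      have := (h.ps B hB).pair isOpen_univ i' (Y := fun v => K.starProjection v)
        (Y' := fun v => K.starProjection v)
        (fun w v => (K.inner_starProjection_left_eq_right _ _).symm)
        (fun g w v hg => net_weak h.scalar an hg c v w) w v
      rw [Submodule.starProjection_eq_self_iff.2 (show (v : Completion E) ∈ K from hv),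
        Completion.inner_coe, h.herm B _ _ _ hB (Gl.test_bar i.1), bar_bar, ← Completion.inner_coe] at this
      exact this.symm
  intro v
  rw [(Completion.isUniformInducing_coe E).isInducing.closure_eq_preimage_closure_image]
  exact a v

/-- the theory of the free field alone -/
def t0 : Theory E where
  vac := Ω
  fld B := B = φ
  bose B := B = φ
  U := U
  norm_vac := h.norm_vac
  cyclic S a b := h.cyc S a fun f v => b φ f v rfl
  lin B f g c v e := h.th.lin B f g c v (e ▸ h.pφ)
  cont B v e := h.th.cont B v (e ▸ h.pφ)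
  adj B e := ⟨B, e, fun f v w => h.herm B f v w (e ▸ h.pφ)⟩
  bose_fld _ e := e
  loc B C f g v e e' := h.th.loc B C f g v (e ▸ h.pφ) (e' ▸ h.pφ)
  U_inner := h.U_inner
  U_vac := h.U_vac
  transl B a f v e := h.th.transl B a f v (e ▸ h.pφ)
  spectrum := h.th.spectrum

theorem cnt0 : P.CntF (hull h.t0) := by
  obtain ⟨A, hA⟩ := h.rep
  refine ⟨⟨_, Set.countable_singleton φ, fun _ => Iff.rfl⟩,
    fun _ h => Submodule.span_le.2 (fun _ b => b) h, fun s L B hs hL hB => ?_⟩
  refine (sp_ind (p := Gl2.Cv h.t0 s L 0) hB (fun B b => ?_) ⟨0, zero_mem _, fun f v _ => ?_⟩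
    fun B C x ⟨B', b, b'⟩ ⟨C', c, c'⟩ =>
      ⟨B' + x • C', add_mem b (Submodule.smul_mem _ _ c), fun f v hf => ?_⟩).imp
        fun _ c => ⟨c.1, fun _ => c.1, c.2⟩
  · rw [show B = φ from b]
    refine Gl2.cv (Q := h.t0) (k := 0) (d := 1) (Φ := fun _ => φ) ⟨hA.mul, hA.add, hA.der⟩ hs hL 0
      (fun μ s L a f v hs hL hf => ?_) (fun _ => rfl) default
    refine (h.scalar.2.2 s L a f v hs hL hf).trans ?_
    simp
    rfl
  · exact map_zero (ueI h.th hs hL 0)
  · show h.th.U s L 0 _ = _
    rw [← ueI_apply hs hL, map_add, map_smul, ueI_apply, ueI_apply]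
    exact congrArg₂ (fun a b => a + x • b) (b' f v hf) (c' f v hf)

variable {Q : Theory E} {A : (V → V) → E → E}

theorem eb_iff (r : Rep Q A) {k : ℕ} {X : E → E} : P.Eb A k X ↔ L22.Bk (L22.PP r) k X := by
  refine ⟨L22.bk r, fun ⟨C, _, c⟩ => ⟨C, fun v => ?_⟩⟩
  rw [En.K_eq r, ← Module.End.pow_apply]
  exact c v

theorem bk_le (r : Rep Q A) {k l : ℕ} {X : E → E} (x : L22.Bk (L22.PP r) k X) :
    L22.Bk (L22.PP r) (l + k) X :=
  have ⟨C, p, c⟩ := x
  ⟨C, p, fun v => (c v).trans (mul_le_mul_of_nonneg_left (by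
    rw [pow_add]; exact (L22.gn r).pw _) p)⟩

/-- energy bounds for the generators give energy bounds for the theory -/
theorem enb (r : Rep h.th A) (l : ∀ f, P.In Set.univ f → P.Eb A 1 (φ f))
    (p : ∀ B f, F B → P.In Set.univ f → ∃ k, P.Eb A k (B f)) : P.EnB h.tq (hull h.t0) A := by
  have z (k) : P.Eb A k fun _ => 0 := ⟨0, fun v => by simp⟩
  have e : ∀ B, h.t0.fld B → F B := fun B e => (show B = φ from e) ▸ h.pφ
  refine ⟨Br.rep.2 (P352L.StA.rep r), ⟨rfl, rfl, fun _ b => Submodule.span_mono e b,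
    fun _ b => Submodule.span_mono e b⟩, h.cnt0, fun _ b => b, fun B f b hf => ?_,
    fun B f b hf => ?_⟩
  · exact sp_ind (p := fun B => P.Eb A 1 (B f)) b (fun B b => (show B = φ from b) ▸ l f hf) (z 1)
      fun B C a x y => (eb_iff r).2 (((eb_iff r).1 x).add (((eb_iff r).1 y).smul a))
  · exact sp_ind (p := fun B => ∃ k, P.Eb A k (B f)) b (fun B b => p B f b hf) ⟨0, z 0⟩
      fun B C a ⟨k, x⟩ ⟨j, y⟩ => ⟨j + k, (eb_iff r).2 ((bk_le r ((eb_iff r).1 x)).add
        ((add_comm j k ▸ bk_le r ((eb_iff r).1 y) :).smul a))⟩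

end Vale.Agent.P352R.Fr
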