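import Vale.Agent.P352R.En.Sub
import Vale.Agent.P352R.En.Lk2
import Vale.Agent.P352R.En.Fb

/-!
# P352R, block En: all Wick polynomials satisfy the energy bounds (helper22)
-/

set_option autoImplicit false
set_option linter.all false

noncomputable section

namespace Vale.Agent.P352R.En.W22

open Vale.Agent.P352 Vale.Agent.P352.GF Vale.Agent.P352W Vale.Agent.P352W.Cn
open Vale.Agent.P352W.Fk hiding Wd IsD D0 D rep mk op Ω Ph Tm UU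
open Vale.Agent.P352W.Eb (NE)
open MeasureTheory
open UniformSpace (Completion)

variable {A : (V → V) → D → D} (hA : H15.Rep fr.th A)

include hA

theorem tm_eb (m n : Ix) {f : Fn} (hf : IsTest f) : P.Eb A 1 (Tm m n f) := by
  obtain ⟨C, b⟩ := Eb.eb_T m n f hf
  refine ⟨|C| * 2, fun v => ?_⟩
  have p := k2.nice (k2.wr v)
  have a := L15.lk rfl hA 1 v
  have e : ∫⁻ c, (1 + Eb.Two.ee (mu c)) ^ (2 * 1) * ‖rep v (mu c)‖ₑ ^ 2 ∂Lam =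
      ENNReal.ofReal (NE (rep v) ^ 2) := Eb.Two.ne_eq p
  rw [e, ENNReal.toReal_ofReal (sq_nonneg _), Real.sqrt_sq (Eb.NE_nn _), pow_one] at a
  calc ‖Tm m n f v‖ = ‖toL (qq (kT m n f) (rep v))‖ := by rw [← k2.tm_val m n hf v]; rfl
    _ ≤ C * NE (rep v) := b _ p
    _ ≤ |C| * (2 * _) := mul_le_mul (le_abs_self C) a (Eb.NE_nn _) (abs_nonneg C)
    _ = _ := by rw [mul_assoc]

theorem mo_eb {n j : ℕ} (π : Fin j → Fin n) (μ : Fin j → Ix) (f : Fn) (hf : P.In Set.univ f) :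
    ∃ k, P.Eb A k (Mo π μ f) := by
  obtain ⟨a, c, c0, e⟩ := (Ap.pn_tm π μ).bd
  obtain ⟨k, K, b⟩ := fb' n a
  refine ⟨_, pol_of_form hA (.inr (.inr ⟨n, j, π, μ, rfl⟩)) k (fun g hg => ?_) f hf⟩
  obtain ⟨C, d⟩ := (Kr.hs_ft hg.1).2 0
  have s : Sb a 0 (c * C) (kS n (tm π μ) g) := fun σ => by
    rw [kS, norm_mul, mul_assoc, mul_right_comm c]
    exact mul_le_mul (e σ) (d _) (mul_nonneg (norm_nonneg _) (pow_pos (rr_pos _) 0).le)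
      ((norm_nonneg _).trans (e σ))
  refine ⟨|c * C * K| * 2 ^ k * 2 ^ k, fun u v => ?_⟩
  have x := b _ _ (rep v) (rep u) (Ap.gs_kS π μ hg.1).1 (k2.nice (k2.wr v)) (k2.nice (k2.wr u)) s
  rw [← k2.inner_mk (k2.wr u) ((k2.wr v).wk π μ hg.1), k2.mk_rep] at x
  refine x.trans ((mul_le_mul (mul_le_mul (le_abs_self _) (L15.lk rfl hA k u) (Real.sqrt_nonneg _)
    (abs_nonneg _)) (L15.lk rfl hA k v) (Real.sqrt_nonneg _) (by positivity)).trans_eq ?_)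
  ring

/-- **the energy bounds** -/
theorem enb : P.EnB fr.tq (P352L.StA.hull fr.t0) A :=
  fr.enb hA (L15.ph_eb rfl hA) <| by
    rintro _ f (rfl | ⟨m, n, rfl⟩ | ⟨n, j, π, μ, rfl⟩) hf
    exacts [⟨1, L15.ph_eb rfl hA f hf⟩, ⟨1, tm_eb hA m n hf.1⟩, mo_eb hA π μ f hf]

omit hA

open P in
/-- **the witness**, with energy bounds -/
theorem wit : ∃ (E : Type) (_ : NormedAddCommGroup E) (_ : InnerProductSpace ℂ E)
    (Q R : Theory E) (T : Ix → Ix → Fld E) (A : (V → V) → E → E)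
    (N : Set V → VonNeumannAlgebra (Completion E)) (φ : Fld E), ((P.Stress0 Q T ∧ P.PCh Q T A ∧
      (P.TfGen Q ∨ MfA Q) ∧ P.FSL Q ∧ P.LNm Q A N ∧ P.UVac Q ∧ P.Rec Q) ∧ P.TfGen Q ∧ MfA Q ∧
      (P.Sect Q Q .id ∧ P.Gr Q id ∧ Gnr Q A) ∧
      (∃ φ, Q.IsScalar φ 1 ∧ ∃ f, IsTest f ∧ φ f Q.vac ≠ 0) ∧
      ¬FiniteDimensional ℂ (Completion E) ∧ ∃ f, IsTest f ∧ tr T f Q.vac ≠ 0) ∧ CntF Q ∧
      EnB Q R A ∧ (∀ B, R.fld B ↔ B ∈ Submodule.span ℂ {φ}) ∧ Q.IsScalar φ 1 ∧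
      ∃ f, IsTest f ∧ φ f Q.vac ≠ 0 :=
  have ⟨A, N, k⟩ := fr.topQ rec_fr
  have r := (Br.lnm.1 k.1.2.2.2.2.1).toRep
  ⟨D, _, _, fr.tq, _, Tm, A, N, Ph, k, cntF_tq, enb ⟨r.mul, r.add, r.der⟩, fun _ => Iff.rfl,
    ⟨P352L.StA.sp_of fr.pφ, fr.scalar.2⟩, fr.nzp⟩

end Vale.Agent.P352R.En.W22
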